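import Vale.Agent.P269.G1.ZSpec
import Vale.Agent.P269.G1.H310.Euler
import Vale.Agent.P269.G1.H598.Cor

/-!
# [ZB1] the Euler equation for two-point functions with descendants
-/

namespace Vale.Agent.P269.G1.H36

open Finset.HasAntidiagonal (antidiagonal)
open Vale.Agent.P269.CI Vale.Agent.P269.G1 Vale.Agent.P269.G1.H310

variable {X : CompleteIntersection} {F : ℕ → ℕ → List (Ins X) → ℂ}

/-- the weight of an ambient list from the grading equation -/
theorem wt_two (hF : IsGW X F) (d : ℕ) (a b : Ix X) (m n : ℕ) (L : List (Fin (X.dim + 1))) :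
    wt X (L.map (hpow X)) * F 0 d ((a, m) :: (b, n) :: L.map (hpow X)) =
      (((m + n + 1 : ℕ) : ℂ) + mu X a + mu X b - (index X : ℂ) * d) *
        F 0 d ((a, m) :: (b, n) :: L.map (hpow X)) := by
  by_cases h0 : F 0 d ((a, m) :: (b, n) :: L.map (hpow X)) = 0
  · rw [h0, mul_zero, mul_zero]
  · congr 1
    have h1 := hF.grading_p 0 d _ h0
    have h2 : wt X (L.map (hpow X)) =
        -((((L.map (hpow X)).map fun x => (x.2 : ℤ) + hp X x.1 - 1).sum : ℤ) : ℂ) := by
      have h3 : ∀ M : List (Ins X), (∀ x ∈ M, x.2 = 0) →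
          wt X M = -(((M.map fun x => (x.2 : ℤ) + hp X x.1 - 1).sum : ℤ) : ℂ) := by
        intro M
        induction M with
        | nil => intro _; simp [wt]
        | cons y M ih =>
          intro hM
          have h3 := ih fun x hx => hM x (List.mem_cons_of_mem _ hx)
          have h4 : y.2 = 0 := hM y List.mem_cons_self
          unfold wt at h3 ⊢
          rw [List.map_cons, List.sum_cons, h3, List.map_cons, List.sum_cons, h4]
          push_cast
          ring
      exact h3 _ (hpow_nodesc L)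
    rw [List.map_cons, List.map_cons, List.sum_cons, List.sum_cons] at h1
    rw [h2]
    have h5 : (((L.map (hpow X)).map fun x => (x.2 : ℤ) + hp X x.1 - 1).sum : ℤ) =
        (1 - ((0 : ℕ) : ℤ)) * (X.dim - 3) + index X * d - ((m : ℤ) + hp X a - 1) -
          ((n : ℤ) + hp X b - 1) := by
      linarith
    rw [h5]
    unfold mu
    push_cast
    ring

theorem lowerSum_two (T : Ix X → Ix X → ℂ) (G : List (Ins X) → ℂ) (a b : Ix X) (m n : ℕ)
    (L : List (Ins X)) (hL : ∀ x ∈ L, x.2 = 0) :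
    lowerSum X T G ((a, m) :: (b, n) :: L) =
      (if m = 0 then 0 else ∑ c, T a c * G ((c, m - 1) :: (b, n) :: L)) +
      (if n = 0 then 0 else ∑ c, T b c * G ((a, m) :: (c, n - 1) :: L)) := by
  have h1 : lowerSum X T G ((a, m) :: (b, n) :: L) =
      ∑ j : Fin (L.length + 1 + 1), if (((a, m) :: (b, n) :: L).get j).2 = 0 then 0 else
        ∑ c, T (((a, m) :: (b, n) :: L).get j).1 c *
          G (((a, m) :: (b, n) :: L).set j (c, (((a, m) :: (b, n) :: L).get j).2 - 1)) := rfl
  rw [h1, Fin.sum_univ_succ, Fin.sum_univ_succ]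
  have h2 : ∑ i : Fin L.length, (if (((a, m) :: (b, n) :: L).get i.succ.succ).2 = 0 then 0 else
        ∑ c, T (((a, m) :: (b, n) :: L).get i.succ.succ).1 c *
          G (((a, m) :: (b, n) :: L).set i.succ.succ
            (c, (((a, m) :: (b, n) :: L).get i.succ.succ).2 - 1))) = 0 := by
    refine Finset.sum_eq_zero fun i _ => ?_
    rw [if_pos]
    exact hL _ (List.get_mem _ _)
  rw [h2, add_zero]
  rfl

theorem pairTerm_two (T : Ix X → Ix X → ℂ) (a b : Ix X) (m n : ℕ) (L : List (Ins X)) :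
    pairTerm X T ((a, m) :: (b, n) :: L) = if (m = 0 ∧ n = 0) ∧ L = [] then T a b else 0 := by
  rcases m with _ | m <;> rcases n with _ | n <;> rcases L with _ | ⟨x, L⟩ <;> simp [pairTerm]

variable (hF : IsGW X F) (h1 : IsGenusOne F)

/-- **[ZB1]** Euler equation for two-point functions: grading and divisor equation -/
theorem W_euler (a b : Ix X) (m n : ℕ) :
    ∑ i, Eu hF h1 i * ser (cor F 0 [hpow X i, (a, m), (b, n)]) =
      (((m + n + 1 : ℕ) : ℂ) + mu X a + mu X b) • W F (a, m) (b, n) +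
      (if m = 0 then 0 else ∑ c, c1 X a c • W F (c, m - 1) (b, n)) +
      (if n = 0 then 0 else ∑ c, c1 X b c • W F (a, m) (c, n - 1)) +
      (if m = 0 ∧ n = 0 then cst X (∑ c, c1 X a c * pairing X c b) else 0) := by
  have e1 : ∑ i, Eu hF h1 i * ser (cor F 0 [hpow X i, (a, m), (b, n)]) =
      eul X (ser (cor F 0 [(a, m), (b, n)])) := by
    unfold eul
    refine Finset.sum_congr rfl fun i _ => ?_
    rw [H598.pderiv_cor hF]
    rfl
  rw [e1, eul_ser _ (H598.symS_cor hF 0 _)]
  have e2 : (if m = 0 then (0 : RR X) else ∑ c, c1 X a c • W F (c, m - 1) (b, n)) =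
      ser (fun d L => if m = 0 then 0 else ∑ c, c1 X a c * cor F 0 [(c, m - 1), (b, n)] d L) := by
    split_ifs
    · exact H598.ser_zero.symm
    · rw [H598.ser_sum]
      exact Finset.sum_congr rfl fun c _ => (H598.ser_smul _ _).symm
  have e3 : (if n = 0 then (0 : RR X) else ∑ c, c1 X b c • W F (a, m) (c, n - 1)) =
      ser (fun d L => if n = 0 then 0 else ∑ c, c1 X b c * cor F 0 [(a, m), (c, n - 1)] d L) := by
    split_ifs
    · exact H598.ser_zero.symm
    · rw [H598.ser_sum]
      exact Finset.sum_congr rfl fun c _ => (H598.ser_smul _ _).symm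
  have e4 : (if m = 0 ∧ n = 0 then cst X (∑ c, c1 X a c * pairing X c b) else 0) =
      ser (fun d L => if m = 0 ∧ n = 0 then
        (if d = 0 ∧ L = [] then ∑ c, c1 X a c * pairing X c b else 0) else 0) := by
    split_ifs
    · exact (H598.ser_const _).symm
    · exact H598.ser_zero.symm
  rw [e2, e3, e4]
  unfold W
  rw [← H598.ser_smul, ← H598.ser_add, ← H598.ser_add, ← H598.ser_add]
  refine H598.ser_congr fun d L => ?_
  have h2 : F 0 d ([(a, m), (b, n)] ++ (hcls X, 0) :: L.map (hpow X)) =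
      F 0 d ((hcls X, 0) :: ([(a, m), (b, n)] ++ L.map (hpow X))) :=
    move_even hF 0 d (hcls X, 0) rfl [(a, m), (b, n)] [] (L.map (hpow X))
  have h3 := hF.divisor 0 d ([(a, m), (b, n)] ++ L.map (hpow X))
  have h4 := wt_two hF d a b m n L
  simp only [List.cons_append, List.nil_append] at h2 h3
  rw [lowerSum_two _ _ _ _ _ _ _ (hpow_nodesc L), pairTerm_two] at h3
  unfold cor
  simp only [List.cons_append, List.nil_append]
  rw [h2, h3]
  rw [h4]
  have h5 : ∀ (x : Ix X) (f : Ix X → ℂ), (index X : ℂ) * ∑ c, hmul X x c * f c =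
      ∑ c, c1 X x c * f c := by
    intro x f
    rw [Finset.mul_sum]
    exact Finset.sum_congr rfl fun c _ => by rw [c1]; ring
  have h6 : (L.map (hpow X) = []) ↔ L = [] := List.map_eq_nil_iff
  have h7 : (if m = 0 then (0 : ℂ) else ∑ c, c1 X a c *
      F 0 d ((c, m - 1) :: (b, n) :: L.map (hpow X))) = (index X : ℂ) * (if m = 0 then (0 : ℂ) else
        ∑ c, hmul X a c * F 0 d ((c, m - 1) :: (b, n) :: L.map (hpow X))) := by
    split_ifs
    · rw [mul_zero]
    · rw [h5]
  have h8 : (if n = 0 then (0 : ℂ) else ∑ c, c1 X b c *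
      F 0 d ((a, m) :: (c, n - 1) :: L.map (hpow X))) = (index X : ℂ) * (if n = 0 then (0 : ℂ) else
        ∑ c, hmul X b c * F 0 d ((a, m) :: (c, n - 1) :: L.map (hpow X))) := by
    split_ifs
    · rw [mul_zero]
    · rw [h5]
  have h9 : (if m = 0 ∧ n = 0 then
        (if d = 0 ∧ L.map (hpow X) = [] then ∑ c, c1 X a c * pairing X c b else 0) else 0) =
      (index X : ℂ) * (if 0 = 0 ∧ d = 0 then
        (if (m = 0 ∧ n = 0) ∧ L.map (hpow X) = [] then ∑ c, hmul X a c * pairing X c b else 0)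
          else 0) := by
    by_cases hm : m = 0 ∧ n = 0
    · by_cases hd : d = 0
      · by_cases hL : L.map (hpow X) = []
        · rw [if_pos hm, if_pos ⟨hd, hL⟩, if_pos ⟨rfl, hd⟩, if_pos ⟨hm, hL⟩, h5]
        · rw [if_pos hm, if_neg fun h => hL h.2, if_pos ⟨rfl, hd⟩, if_neg fun h => hL h.2, mul_zero]
      · rw [if_pos hm, if_neg fun h => hd h.1, if_neg fun h => hd h.2, mul_zero]
    · rw [if_neg hm, if_neg fun h : (m = 0 ∧ n = 0) ∧ L.map (hpow X) = [] => hm h.1]
      split_ifs <;> rw [mul_zero]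
  rw [h7, h8, h9]
  simp only [if_neg (show ¬ ((0 : ℕ) = 1 ∧ d = 0) by omega)]
  ring

end Vale.Agent.P269.G1.H36
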